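import Mathlib
import Vale.Agent.P092.RC.Defs

/-!
P092, TEAM P, row [P-PERM] (helper53): the ranges of an equivariant family of positive maps.

`Y` is a compact `G`-space, `q : Γ → G`, `Ex x : C(Y) → B(K)` a family which is covariant under `Γ`
(through `q`) and permuted by `π(E)`. `VU Ex U` is the closed span of the ranges of `Ex x f`,
`supp f ⊆ U`. The projection onto it commutes with `W` and `π`, and the vector state of `Ω` on it is
`Γ`-invariant and faithful.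
-/

set_option linter.all false

open scoped InnerProductSpace ENNReal Topology
open Filter ContinuousLinearMap MeasureTheory TopologicalSpace Set

namespace Vale.Agent.P092.H53.Pm

open Vale.Agent.P092.RC (Cm TRN Pic)

section faith

variable {E Γ K : Type} [Group E] [TopologicalSpace E] [Group Γ] [NormedAddCommGroup K]
  [InnerProductSpace ℂ K] [CompleteSpace K] {π : E →* (K →L[ℂ] K)} {lam : Γ →* (K →L[ℂ] K)}
  {W : Set (K →L[ℂ] K)} {Ω : K}

theorem lam_inv_mul (lam : Γ →* (K →L[ℂ] K)) (γ : Γ) : lam γ⁻¹ * lam γ = 1 := by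
  rw [← map_mul, inv_mul_cancel, map_one]

theorem lam_mul_inv (lam : Γ →* (K →L[ℂ] K)) (γ : Γ) : lam γ * lam γ⁻¹ = 1 := by
  rw [← map_mul, mul_inv_cancel, map_one]

theorem norm_lam (hP : Pic π lam W Ω) (γ : Γ) (ξ : K) : ‖lam γ ξ‖ = ‖ξ‖ := by
  have h1 : ⟪lam γ ξ, lam γ ξ⟫_ℂ = ⟪ξ, ξ⟫_ℂ := by
    rw [← adjoint_inner_left, hP.adjL]
    have h2 : lam γ⁻¹ (lam γ ξ) = ξ :=
      congrArg (fun A : K →L[ℂ] K => A ξ) (lam_inv_mul lam γ)
    rw [h2]
  rw [inner_self_eq_norm_sq_to_K, inner_self_eq_norm_sq_to_K] at h1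
  have h3 : ‖lam γ ξ‖ ^ 2 = ‖ξ‖ ^ 2 := by exact_mod_cast h1
  exact (sq_eq_sq₀ (norm_nonneg _) (norm_nonneg _)).1 h3

/-- The vector state is faithful on the operators commuting with `W` and `π`. -/
theorem faith (hP : Pic π lam W Ω) {T : K →L[ℂ] K} (hT : Cm W T)
    (hTp : ∀ g, T * π g = π g * T) (h0 : T Ω = 0) : T = 0 := by
  refine hP.tr_zero T hT ?_
  unfold TRN
  rw [ENNReal.tsum_eq_zero]
  intro γ
  -- the operator `T* T`
  have hS : Cm W (adjoint T * T) := by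
    intro w hw
    have h1 := hT w hw
    have h2 := hT _ (hP.Wadj w hw)
    have h3 : adjoint T * w = w * adjoint T := by
      have h4 := congrArg adjoint h2
      rw [mul_def, mul_def, adjoint_comp, adjoint_comp, adjoint_adjoint] at h4
      exact h4.symm
    rw [mul_assoc, h1, ← mul_assoc, h3, mul_assoc]
  have hSp : ∀ g, (adjoint T * T) * π g = π g * (adjoint T * T) := by
    intro g
    have h1 := hTp g
    have h2 := hTp g⁻¹
    have h3 : adjoint T * π g = π g * adjoint T := by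
      have h4 := congrArg adjoint h2
      rw [mul_def, mul_def, adjoint_comp, adjoint_comp, hP.adjP, inv_inv] at h4
      exact h4.symm
    rw [mul_assoc, h1, ← mul_assoc, h3, mul_assoc]
  have h1 := hP.inv _ hS hSp γ⁻¹
  rw [inv_inv] at h1
  have h2 : ⟪Ω, (adjoint T * T) Ω⟫_ℂ = 0 := by
    have : (adjoint T * T) Ω = adjoint T (T Ω) := rfl
    rw [this, h0, map_zero, inner_zero_right]
  rw [h2] at h1
  have h3 : ⟪Ω, (lam γ⁻¹ * (adjoint T * T) * lam γ) Ω⟫_ℂ = ⟪T (lam γ Ω), T (lam γ Ω)⟫_ℂ := by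
    have e1 : (lam γ⁻¹ * (adjoint T * T) * lam γ) Ω = lam γ⁻¹ (adjoint T (T (lam γ Ω))) := rfl
    rw [e1, ← hP.adjL γ, adjoint_inner_right, adjoint_inner_right]
  rw [h3, inner_self_eq_norm_sq_to_K] at h1
  have h4 : ‖T (lam γ Ω)‖ = 0 := by
    have h5 : ((‖T (lam γ Ω)‖ ^ 2 : ℝ) : ℂ) = 0 := by
      push_cast
      exact h1
    have h6 : ‖T (lam γ Ω)‖ ^ 2 = 0 := by exact_mod_cast h5
    exact pow_eq_zero_iff (two_ne_zero) |>.1 h6
  rw [← ofReal_norm_eq_enorm, h4]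
  simp

end faith

/-! ### Families -/

section fam

variable {G Y E Γ X K : Type} [Group G] [TopologicalSpace Y] [MulAction G Y] [Group E]
  [TopologicalSpace E] [Group Γ] [NormedAddCommGroup K] [InnerProductSpace ℂ K] [CompleteSpace K]

/-- An equivariant family of (positive) maps on `C(Y)`. -/
structure Fam (q : Γ → G) (π : E →* (K →L[ℂ] K)) (lam : Γ →* (K →L[ℂ] K)) (W : Set (K →L[ℂ] K))
    (Ex : X → (C(Y, ℂ) →ₗ[ℂ] (K →L[ℂ] K))) : Prop where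
  star : ∀ x f, Ex x (star f) = adjoint (Ex x f)
  cm : ∀ x f, Cm W (Ex x f)
  cov : ∀ γ x (f f' : C(Y, ℂ)), (∀ y, f' (q γ • y) = f y) → lam γ * Ex x f * lam γ⁻¹ = Ex x f'
  pcov : ∀ h x, ∃ x', ∀ f, π h * Ex x f * π h⁻¹ = Ex x' f
  one : ∃ x, ∃ c : ℂ, c ≠ 0 ∧ Ex x 1 = c • 1

/-- the span of the ranges of the functions with support in `U` -/
def SU (Ex : X → (C(Y, ℂ) →ₗ[ℂ] (K →L[ℂ] K))) (U : Set Y) : Submodule ℂ K :=
  Submodule.span ℂ {η | ∃ x, ∃ f : C(Y, ℂ), ∃ ζ, tsupport f ⊆ U ∧ η = Ex x f ζ}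

/-- its closure -/
def VU (Ex : X → (C(Y, ℂ) →ₗ[ℂ] (K →L[ℂ] K))) (U : Set Y) : Submodule ℂ K :=
  (SU Ex U).topologicalClosure

instance (Ex : X → (C(Y, ℂ) →ₗ[ℂ] (K →L[ℂ] K))) (U : Set Y) :
    (VU Ex U).HasOrthogonalProjection := by
  unfold VU; infer_instance

/-- the projection -/
noncomputable def PU (Ex : X → (C(Y, ℂ) →ₗ[ℂ] (K →L[ℂ] K))) (U : Set Y) : K →L[ℂ] K :=
  (VU Ex U).starProjection

variable {q : Γ → G} {π : E →* (K →L[ℂ] K)} {lam : Γ →* (K →L[ℂ] K)} {W : Set (K →L[ℂ] K)} {Ω : K}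
  {Ex : X → (C(Y, ℂ) →ₗ[ℂ] (K →L[ℂ] K))}

theorem su_mem {U : Set Y} {x : X} {f : C(Y, ℂ)} (hf : tsupport f ⊆ U) (ζ : K) :
    Ex x f ζ ∈ SU Ex U := Submodule.subset_span ⟨x, f, ζ, hf, rfl⟩

theorem vu_mem {U : Set Y} {x : X} {f : C(Y, ℂ)} (hf : tsupport f ⊆ U) (ζ : K) :
    Ex x f ζ ∈ VU Ex U := (SU Ex U).le_topologicalClosure (su_mem hf ζ)

theorem su_mono {U V : Set Y} (h : U ⊆ V) : SU Ex U ≤ SU Ex V := by
  refine Submodule.span_mono ?_
  rintro _ ⟨x, f, ζ, hf, rfl⟩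
  exact ⟨x, f, ζ, hf.trans h, rfl⟩

theorem vu_mono {U V : Set Y} (h : U ⊆ V) : VU Ex U ≤ VU Ex V :=
  Submodule.topologicalClosure_mono (su_mono h)

/-- the invariance of `VU` under an operator which maps the generators into `VU` -/
theorem vu_map {U V : Set Y} {A : K →L[ℂ] K}
    (h : ∀ x (f : C(Y, ℂ)) ζ, tsupport f ⊆ U → A (Ex x f ζ) ∈ VU Ex V) :
    ∀ ξ ∈ VU Ex U, A ξ ∈ VU Ex V := by
  have h1 : SU Ex U ≤ (VU Ex V).comap (A : K →ₗ[ℂ] K) := by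
    unfold SU
    rw [Submodule.span_le]
    rintro _ ⟨x, f, ζ, hf, rfl⟩
    exact h x f ζ hf
  have h2 : IsClosed (((VU Ex V).comap (A : K →ₗ[ℂ] K) : Submodule ℂ K) : Set K) := by
    have h3 : IsClosed ((VU Ex V : Submodule ℂ K) : Set K) :=
      Submodule.isClosed_topologicalClosure _
    exact h3.preimage A.continuous
  have h4 := Submodule.topologicalClosure_minimal _ h1 h2
  exact fun ξ hξ => h4 hξ

theorem comm_proj (V : Submodule ℂ K) [V.HasOrthogonalProjection] (w : K →L[ℂ] K)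
    (h1 : ∀ ξ ∈ V, w ξ ∈ V) (h2 : ∀ ξ ∈ V, adjoint w ξ ∈ V) :
    w * V.starProjection = V.starProjection * w := by
  ext1 ξ
  change w (V.starProjection ξ) = V.starProjection (w ξ)
  have h3 : w (ξ - V.starProjection ξ) ∈ Vᗮ := by
    rw [Submodule.mem_orthogonal]
    intro u hu
    rw [← adjoint_inner_left]
    exact Submodule.mem_orthogonal V _ |>.1 (V.sub_starProjection_mem_orthogonal ξ) _ (h2 u hu)
  have h4 : V.starProjection (w ξ) = w (V.starProjection ξ) := by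
    refine V.eq_starProjection_of_mem_orthogonal (h1 _ (V.starProjection_apply_mem ξ)) ?_
    rw [← map_sub]
    exact h3
  exact h4.symm

theorem pu_cm (hP : Pic π lam W Ω) (hF : Fam q π lam W Ex) (U : Set Y) : Cm W (PU Ex U) := by
  intro w hw
  refine (comm_proj _ w ?_ ?_).symm
  · refine vu_map fun x f ζ hf => ?_
    have h1 : w (Ex x f ζ) = Ex x f (w ζ) :=
      (congrArg (fun A : K →L[ℂ] K => A ζ) (hF.cm x f w hw)).symm
    rw [h1]
    exact vu_mem hf _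
  · refine vu_map fun x f ζ hf => ?_
    have h1 : adjoint w (Ex x f ζ) = Ex x f (adjoint w ζ) :=
      (congrArg (fun A : K →L[ℂ] K => A ζ) (hF.cm x f _ (hP.Wadj w hw))).symm
    rw [h1]
    exact vu_mem hf _

theorem pi_mem (hF : Fam q π lam W Ex) (U : Set Y) (g : E) : ∀ ξ ∈ VU Ex U, π g ξ ∈ VU Ex U := by
  refine vu_map fun x f ζ hf => ?_
  obtain ⟨x', hx'⟩ := hF.pcov g x
  have h1 : π g⁻¹ * π g = 1 := by rw [← map_mul, inv_mul_cancel, map_one]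
  have h2 : π g (Ex x f ζ) = Ex x' f (π g ζ) := by
    have h3 := congrArg (fun A : K →L[ℂ] K => A (π g ζ)) (hx' f)
    have h4 : π g⁻¹ (π g ζ) = ζ := congrArg (fun A : K →L[ℂ] K => A ζ) h1
    have h5 : (π g * Ex x f * π g⁻¹) (π g ζ) = π g (Ex x f (π g⁻¹ (π g ζ))) := rfl
    rw [← h4]
    have h6 : π g (Ex x f (π g⁻¹ (π g ζ))) = Ex x' f (π g ζ) := h5.symm.trans h3
    rw [h6, h4]
  rw [h2]
  exact vu_mem hf _

theorem pu_pi (hP : Pic π lam W Ω) (hF : Fam q π lam W Ex) (U : Set Y) (g : E) :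
    PU Ex U * π g = π g * PU Ex U := by
  refine (comm_proj _ (π g) (pi_mem hF U g) ?_).symm
  rw [hP.adjP]
  exact pi_mem hF U g⁻¹

/-- the translate of a set of points by the inverse of `g` -/
def pre (g : G) (U : Set Y) : Set Y := {y | g • y ∈ U}

theorem pre_mul (g h : G) (U : Set Y) : pre (h * g) U = pre g (pre h U) := by
  ext y; simp [pre, mul_smul]

theorem pre_mono {g : G} {U V : Set Y} (h : U ⊆ V) : pre g U ⊆ pre g V := fun _ hy => h hy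

theorem pre_one (U : Set Y) : pre (1 : G) U = U := by
  ext y; simp [pre]

variable [ContinuousConstSMul G Y]

theorem tsup_pre {g : G} {f f' : C(Y, ℂ)} (h : ∀ y, f' (g • y) = f y) {U : Set Y}
    (hf : tsupport f ⊆ pre g U) : tsupport f' ⊆ U := by
  intro y hy
  have h1 : g⁻¹ • y ∈ tsupport f := by
    have h2 : tsupport (fun y => f (g⁻¹ • y)) = tsupport f' := by
      congr 1
      funext z
      rw [← h, smul_inv_smul]
    rw [← h2] at hy
    have h3 := tsupport_comp_subset_preimage (f : Y → ℂ) (f := fun y : Y => g⁻¹ • y)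
      (continuous_const_smul g⁻¹) hy
    exact h3
  have h4 := hf h1
  change g • g⁻¹ • y ∈ U at h4
  rwa [smul_inv_smul] at h4

/-- `lam γ` maps `VU (q γ)⁻¹U` into `VU U` -/
theorem lam_mem (hF : Fam q π lam W Ex) (U : Set Y) (γ : Γ) :
    ∀ ξ ∈ VU Ex (pre (q γ) U), lam γ ξ ∈ VU Ex U := by
  refine vu_map fun x f ζ hf => ?_
  obtain ⟨f', hf'⟩ : ∃ f' : C(Y, ℂ), f' = ⟨fun y => f ((q γ)⁻¹ • y),
    f.continuous.comp (continuous_const_smul _)⟩ := ⟨_, rfl⟩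
  have h0 : ∀ y, f' (q γ • y) = f y := fun y => by
    rw [hf']
    change f ((q γ)⁻¹ • q γ • y) = f y
    rw [inv_smul_smul]
  have h1 := hF.cov γ x f f' h0
  have h4 : lam γ⁻¹ (lam γ ζ) = ζ :=
    congrArg (fun A : K →L[ℂ] K => A ζ) (lam_inv_mul lam γ)
  have h2 : lam γ (Ex x f ζ) = Ex x f' (lam γ ζ) := by
    have h3 := congrArg (fun A : K →L[ℂ] K => A (lam γ ζ)) h1
    have h5 : (lam γ * Ex x f * lam γ⁻¹) (lam γ ζ) = lam γ (Ex x f (lam γ⁻¹ (lam γ ζ))) := rfl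
    rw [h4] at h5
    exact h5.symm.trans h3
  rw [h2]
  exact vu_mem (tsup_pre h0 hf) _

/-- `lam γ⁻¹` maps `VU U` into `VU (q γ)⁻¹U` -/
theorem lam_mem' (hF : Fam q π lam W Ex) (U : Set Y) (γ : Γ) :
    ∀ ξ ∈ VU Ex U, lam γ⁻¹ ξ ∈ VU Ex (pre (q γ) U) := by
  refine vu_map fun x f ζ hf => ?_
  obtain ⟨f', hf'⟩ : ∃ f' : C(Y, ℂ), f' = ⟨fun y => f (q γ • y),
    f.continuous.comp (continuous_const_smul _)⟩ := ⟨_, rfl⟩
  have h0 : ∀ y, f (q γ • y) = f' y := fun y => by rw [hf']; rfl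
  have h1 := hF.cov γ x f' f h0
  have h2 : lam γ⁻¹ (Ex x f ζ) = Ex x f' (lam γ⁻¹ ζ) := by
    rw [← h1]
    have h3 : (lam γ * Ex x f' * lam γ⁻¹) ζ = lam γ (Ex x f' (lam γ⁻¹ ζ)) := rfl
    rw [h3]
    exact congrArg (fun A : K →L[ℂ] K => A (Ex x f' (lam γ⁻¹ ζ))) (lam_inv_mul lam γ)
  rw [h2]
  refine vu_mem ?_ _
  intro y hy
  have h3 := tsupport_comp_subset_preimage (f : Y → ℂ) (f := fun y : Y => q γ • y)
      (continuous_const_smul (q γ)) (show y ∈ tsupport ((f : Y → ℂ) ∘ fun y : Y => q γ • y) by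
        rw [hf'] at hy; exact hy)
  exact hf h3

/-- covariance of the projections -/
theorem pu_lam (hP : Pic π lam W Ω) (hF : Fam q π lam W Ex) (U : Set Y) (γ : Γ) :
    lam γ * PU Ex (pre (q γ) U) * lam γ⁻¹ = PU Ex U := by
  ext1 ξ
  change lam γ ((VU Ex (pre (q γ) U)).starProjection (lam γ⁻¹ ξ)) = (VU Ex U).starProjection ξ
  refine ((VU Ex U).eq_starProjection_of_mem_orthogonal (lam_mem hF U γ _
    ((VU Ex (pre (q γ) U)).starProjection_apply_mem _)) ?_).symm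
  rw [Submodule.mem_orthogonal]
  intro u hu
  have h1 := (Submodule.mem_orthogonal _ _).1
    ((VU Ex (pre (q γ) U)).sub_starProjection_mem_orthogonal (lam γ⁻¹ ξ)) _
    (lam_mem' hF U γ u hu)
  have h2 : ξ = lam γ (lam γ⁻¹ ξ) :=
    (congrArg (fun A : K →L[ℂ] K => A ξ) (lam_mul_inv lam γ)).symm
  have h3 : ξ - lam γ ((VU Ex (pre (q γ) U)).starProjection (lam γ⁻¹ ξ)) =
      lam γ (lam γ⁻¹ ξ - (VU Ex (pre (q γ) U)).starProjection (lam γ⁻¹ ξ)) := by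
    rw [map_sub, ← h2]
  rw [h3, ← adjoint_inner_left, hP.adjL]
  exact h1

/-- the defect of `U` -/
noncomputable def df (Ω : K) (Ex : X → (C(Y, ℂ) →ₗ[ℂ] (K →L[ℂ] K))) (U : Set Y) : ℝ :=
  ‖Ω - PU Ex U Ω‖

theorem df_nonneg (U : Set Y) : 0 ≤ df Ω Ex U := norm_nonneg _

theorem df_sq (U : Set Y) : df Ω Ex U ^ 2 = ‖Ω‖ ^ 2 - (⟪Ω, PU Ex U Ω⟫_ℂ).re := by
  have h1 : ⟪PU Ex U Ω, Ω - PU Ex U Ω⟫_ℂ = 0 :=
    (Submodule.mem_orthogonal _ _).1 ((VU Ex U).sub_starProjection_mem_orthogonal Ω) _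
      ((VU Ex U).starProjection_apply_mem Ω)
  have h2 : ⟪Ω - PU Ex U Ω, Ω - PU Ex U Ω⟫_ℂ = ⟪Ω, Ω⟫_ℂ - ⟪Ω, PU Ex U Ω⟫_ℂ := by
    rw [inner_sub_left, h1, sub_zero, inner_sub_right]
  have h3 := congrArg Complex.re h2
  rw [Complex.sub_re] at h3
  have h4 : (⟪Ω - PU Ex U Ω, Ω - PU Ex U Ω⟫_ℂ).re = ‖Ω - PU Ex U Ω‖ ^ 2 :=
    inner_self_eq_norm_sq (𝕜 := ℂ) (Ω - PU Ex U Ω)
  have h5 : (⟪Ω, Ω⟫_ℂ).re = ‖Ω‖ ^ 2 := inner_self_eq_norm_sq (𝕜 := ℂ) Ω
  rw [h4, h5] at h3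
  exact h3

theorem df_le (U : Set Y) {ξ : K} (hξ : ξ ∈ VU Ex U) : df Ω Ex U ≤ ‖Ω - ξ‖ := by
  unfold df PU
  rw [(VU Ex U).starProjection_minimal Ω]
  exact ciInf_le ⟨0, by rintro _ ⟨x, rfl⟩; exact norm_nonneg _⟩ (⟨ξ, hξ⟩ : VU Ex U)

theorem df_le_one (hΩ : ‖Ω‖ = 1) (U : Set Y) : df Ω Ex U ≤ 1 := by
  have := df_le (Ω := Ω) U (zero_mem (VU Ex U))
  rwa [sub_zero, hΩ] at this

theorem df_mono {U V : Set Y} (h : U ⊆ V) : df Ω Ex V ≤ df Ω Ex U :=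
  df_le V (vu_mono h ((VU Ex U).starProjection_apply_mem Ω))

/-- `Γ`-invariance of the defect -/
theorem df_inv (hP : Pic π lam W Ω) (hF : Fam q π lam W Ex) (U : Set Y) (γ : Γ) :
    df Ω Ex (pre (q γ) U) = df Ω Ex U := by
  have h1 := hP.inv (PU Ex (pre (q γ) U)) (pu_cm hP hF _) (pu_pi hP hF _) γ
  rw [pu_lam hP hF U γ] at h1
  have h2 := df_sq (Ω := Ω) (Ex := Ex) U
  have h3 := df_sq (Ω := Ω) (Ex := Ex) (pre (q γ) U)
  rw [h1, ← h3] at h2
  exact ((sq_eq_sq₀ (df_nonneg _) (df_nonneg _)).1 h2).symm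

/-- equal defects give equal subspaces -/
theorem vu_eq (hP : Pic π lam W Ω) (hF : Fam q π lam W Ex) {U V : Set Y} (h : U ⊆ V)
    (he : df Ω Ex V = df Ω Ex U) : VU Ex U = VU Ex V := by
  have h1 : (PU Ex V - PU Ex U) Ω = 0 := by
    have e1 := df_sq (Ω := Ω) (Ex := Ex) U
    have e2 := df_sq (Ω := Ω) (Ex := Ex) V
    rw [he, e1] at e2
    have e3 : (⟪Ω, PU Ex U Ω⟫_ℂ).re = (⟪Ω, PU Ex V Ω⟫_ℂ).re := by linarith
    -- `PU V - PU U` is a projection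
    have hUV : PU Ex V (PU Ex U Ω) = PU Ex U Ω :=
      (Submodule.starProjection_eq_self_iff).2 (vu_mono h ((VU Ex U).starProjection_apply_mem Ω))
    have hVV : PU Ex V (PU Ex V Ω) = PU Ex V Ω :=
      (Submodule.starProjection_eq_self_iff).2 ((VU Ex V).starProjection_apply_mem Ω)
    have hUU : PU Ex U (PU Ex U Ω) = PU Ex U Ω :=
      (Submodule.starProjection_eq_self_iff).2 ((VU Ex U).starProjection_apply_mem Ω)
    have sV : ∀ a b, ⟪PU Ex V a, b⟫_ℂ = ⟪a, PU Ex V b⟫_ℂ := fun a b =>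
      (VU Ex V).inner_starProjection_left_eq_right a b
    have sU : ∀ a b, ⟪PU Ex U a, b⟫_ℂ = ⟪a, PU Ex U b⟫_ℂ := fun a b =>
      (VU Ex U).inner_starProjection_left_eq_right a b
    have h2 : ⟪PU Ex V Ω - PU Ex U Ω, PU Ex V Ω - PU Ex U Ω⟫_ℂ =
        ⟪Ω, PU Ex V Ω⟫_ℂ - ⟪Ω, PU Ex U Ω⟫_ℂ := by
      rw [inner_sub_left, inner_sub_right, inner_sub_right, sV, sV, hVV, hUV, sU, sU, hUU]
      have h3 : ⟪Ω, PU Ex U (PU Ex V Ω)⟫_ℂ = ⟪Ω, PU Ex U Ω⟫_ℂ := by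
        rw [← sU, ← sV, hUV, sU]
      rw [h3]
      ring
    have h4 := congrArg Complex.re h2
    rw [Complex.sub_re, e3, sub_self] at h4
    have h5 : (⟪PU Ex V Ω - PU Ex U Ω, PU Ex V Ω - PU Ex U Ω⟫_ℂ).re =
        ‖PU Ex V Ω - PU Ex U Ω‖ ^ 2 := inner_self_eq_norm_sq (𝕜 := ℂ) _
    rw [h5] at h4
    exact norm_eq_zero.1 (pow_eq_zero_iff two_ne_zero |>.1 h4)
  have h2 : PU Ex V - PU Ex U = 0 := by
    refine faith hP ?_ ?_ h1
    · intro w hw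
      rw [sub_mul, mul_sub, pu_cm hP hF V w hw, pu_cm hP hF U w hw]
    · intro g
      rw [sub_mul, mul_sub, pu_pi hP hF V g, pu_pi hP hF U g]
  refine le_antisymm (vu_mono h) fun ξ hξ => ?_
  have h3 : PU Ex V ξ = PU Ex U ξ := by
    have := congrArg (fun A : K →L[ℂ] K => A ξ) (sub_eq_zero.1 h2)
    exact this
  have h4 : PU Ex V ξ = ξ := Submodule.starProjection_eq_self_iff.2 hξ
  rw [← h4, h3]
  exact (VU Ex U).starProjection_apply_mem ξ

/-- inner regularity -/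
theorem exists_compact [CompactSpace Y] {U : Set Y} {ξ : K} (hξ : ξ ∈ SU Ex U) :
    ∃ D : Set Y, IsCompact D ∧ D ⊆ U ∧ ∀ V : Set Y, D ⊆ V → ξ ∈ SU Ex V := by
  unfold SU at hξ
  induction hξ using Submodule.span_induction with
  | mem η hη =>
    obtain ⟨x, f, ζ, hf, rfl⟩ := hη
    exact ⟨tsupport f, (isClosed_tsupport _).isCompact, hf, fun V hV => su_mem hV ζ⟩
  | zero => exact ⟨∅, isCompact_empty, empty_subset _, fun V _ => zero_mem _⟩
  | add a b _ _ ha hb =>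
    obtain ⟨D, h1, h2, h3⟩ := ha
    obtain ⟨D', h1', h2', h3'⟩ := hb
    exact ⟨D ∪ D', h1.union h1', union_subset h2 h2', fun V hV =>
      add_mem (h3 V (subset_union_left.trans hV)) (h3' V (subset_union_right.trans hV))⟩
  | smul c a _ ha =>
    obtain ⟨D, h1, h2, h3⟩ := ha
    exact ⟨D, h1, h2, fun V hV => Submodule.smul_mem _ c (h3 V hV)⟩

/-- semicontinuity -/
theorem df_semi [CompactSpace Y] (U : Set Y) {ε : ℝ} (hε : 0 < ε) :
    ∃ D : Set Y, IsCompact D ∧ D ⊆ U ∧ ∀ V : Set Y, D ⊆ V → df Ω Ex V ≤ df Ω Ex U + ε := by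
  have h1 : PU Ex U Ω ∈ closure ((SU Ex U : Submodule ℂ K) : Set K) := by
    have := (VU Ex U).starProjection_apply_mem Ω
    unfold VU at this
    rw [← SetLike.mem_coe, Submodule.topologicalClosure_coe] at this
    exact this
  obtain ⟨ξ, hξ, hd⟩ := Metric.mem_closure_iff.1 h1 ε hε
  obtain ⟨D, hD, hDU, hDV⟩ := exists_compact (Ex := Ex) hξ
  refine ⟨D, hD, hDU, fun V hV => ?_⟩
  have h2 := df_le (Ω := Ω) V ((SU Ex V).le_topologicalClosure (hDV V hV))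
  refine h2.trans ?_
  have h3 : Ω - ξ = (Ω - PU Ex U Ω) + (PU Ex U Ω - ξ) := by abel
  rw [h3]
  refine (norm_add_le _ _).trans ?_
  rw [dist_eq_norm] at hd
  unfold df
  linarith

end fam

end Vale.Agent.P092.H53.Pm
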