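import Vale.Agent.P092.SD.Tw
import Vale.Agent.P092.H962.C.Amp
import Vale.Agent.P092.H790.CTA

/-!
P092 (helper53): transport along a unitary of the picture `RC.PicX` (existential form of the field
`inv`), of the growth and size properties; conjugation of ucp maps and calculi.
-/

set_option linter.all false

open scoped InnerProductSpace ENNReal LinearAlgebra.Projectivization
open Filter Topology ContinuousLinearMap MeasureTheory TopologicalSpace

namespace Vale.Agent.P092.H53.TwX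

open Vale.Agent.P092.RC (Cm TRN Moore Pic PicX Tw cj cj_ap norm_cj adjoint_cj cm_cj cj_comm)
open Vale.Agent.P092.SD (cjH surj_vec cj_surj cj_norm_ap cj_smul_one)
open Vale.Agent.P092.H790.CTA (ORBG SIZEG)

variable {K K' : Type} [NormedAddCommGroup K] [InnerProductSpace ℂ K] [CompleteSpace K]
  [NormedAddCommGroup K'] [InnerProductSpace ℂ K'] [CompleteSpace K'] {u : K ≃ₗᵢ[ℂ] K'}
  {G Γ : Type} [Group G] [TopologicalSpace G] [Group Γ]
  {π : G →* (K →L[ℂ] K)} {lam : Γ →* (K →L[ℂ] K)}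
  {W : Set (K →L[ℂ] K)} {Ω : K} {π' : G →* (K' →L[ℂ] K')} {lam' : Γ →* (K' →L[ℂ] K')}
  {W' : Set (K' →L[ℂ] K')} {Ω' : K'}

theorem toX (h : Pic π lam W Ω) : PicX π lam W Ω where
  adjP := h.adjP
  contP := h.contP
  adjL := h.adjL
  comm := h.comm
  Wadj := h.Wadj
  WP := h.WP
  WL := h.WL
  nΩ := h.nΩ
  erg := h.erg
  tr_adj := h.tr_adj
  tr_conj := h.tr_conj
  tr_zero := h.tr_zero
  hs_erg := h.hs_erg
  inv := ⟨Ω, h.nΩ, h.inv⟩

theorem tw_picX (t : Tw u π lam W Ω π' lam' W' Ω') (h : PicX π lam W Ω) :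
    PicX π' lam' W' Ω' where
  adjP g := by rw [t.pi, adjoint_cj, h.adjP, t.pi]
  contP ξ := by
    obtain ⟨η, rfl⟩ := surj_vec u ξ
    have h1 : (fun g => π' g (u η)) = fun g => u (π g η) := by
      funext g; rw [t.pi, cj_ap]
    rw [h1]
    exact u.continuous.comp (h.contP η)
  adjL γ := by rw [t.lam, adjoint_cj, h.adjL, t.lam]
  comm g γ := by rw [t.pi, t.lam, ← map_mul, ← map_mul, h.comm]
  Wadj w hw := by
    rw [t.W] at hw ⊢
    obtain ⟨v, hv, rfl⟩ := hw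
    exact ⟨adjoint v, h.Wadj v hv, (adjoint_cj u v).symm⟩
  WP w hw g := by
    rw [t.W] at hw ⊢
    obtain ⟨v, hv, rfl⟩ := hw
    exact ⟨_, h.WP v hv g, by rw [t.pi, t.pi, map_mul, map_mul]⟩
  WL w hw γ := by
    rw [t.W] at hw
    obtain ⟨v, hv, rfl⟩ := hw
    rw [t.lam, ← map_mul, ← map_mul, h.WL v hv]
  nΩ := by rw [t.Om, u.norm_map, h.nΩ]
  erg S hS T hT h1 h2 := by
    obtain ⟨T, rfl⟩ := cj_surj u T
    rw [t.W] at hT
    obtain ⟨z, hz⟩ := h.erg S hS T ((cm_cj u).1 hT)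
      (fun γ => by
        have h3 := h1 γ
        rw [t.lam] at h3
        exact (cj_comm u).1 h3)
      (fun g hg => by
        have h3 := h2 g hg
        rw [t.pi] at h3
        exact (cj_comm u).1 h3)
    exact ⟨z, by rw [hz, cj_smul_one]⟩
  tr_adj T hT := by
    obtain ⟨T, rfl⟩ := cj_surj u T
    rw [t.W] at hT
    rw [adjoint_cj, t.trn, t.trn, h.tr_adj T ((cm_cj u).1 hT)]
  tr_conj T hT g := by
    obtain ⟨T, rfl⟩ := cj_surj u T
    rw [t.W] at hT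
    rw [t.pi, t.pi, ← map_mul, ← map_mul, t.trn, t.trn, h.tr_conj T ((cm_cj u).1 hT)]
  tr_zero T hT h0 := by
    obtain ⟨T, rfl⟩ := cj_surj u T
    rw [t.W] at hT
    rw [t.trn] at h0
    rw [h.tr_zero T ((cm_cj u).1 hT) h0, map_zero]
  hs_erg S hS T hT hfin h2 := by
    obtain ⟨T, rfl⟩ := cj_surj u T
    rw [t.W] at hT
    rw [t.trn] at hfin
    rw [h.hs_erg S hS T ((cm_cj u).1 hT) hfin (fun g hg => by
        have h3 := h2 g hg
        rw [t.pi] at h3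
        exact (cj_comm u).1 h3), map_zero]
  inv := by
    obtain ⟨Ω₁, h1, h2⟩ := h.inv
    refine ⟨u Ω₁, by rw [u.norm_map, h1], fun T hT h3 γ => ?_⟩
    obtain ⟨T, rfl⟩ := cj_surj u T
    rw [t.W] at hT
    have h4 := h2 T ((cm_cj u).1 hT) (fun g => by
        have h5 := h3 g
        rw [t.pi] at h5
        exact (cj_comm u).1 h5) γ
    rw [t.lam, t.lam, ← map_mul, ← map_mul, cj_ap, cj_ap, u.inner_map_map, u.inner_map_map]
    exact h4

theorem tw_orbg {V : Type} [NormedAddCommGroup V] [MeasurableSpace V] {μ : Measure V} {b : G}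
    {n : V → G} {ρ : ℝ} (t : Tw u π lam W Ω π' lam' W' Ω')
    (h : ORBG μ b n ρ π lam W Ω) : ORBG μ b n ρ π' lam' W' Ω' := by
  intro g δ hδ
  obtain ⟨C, hC⟩ := h g δ hδ
  refine ⟨C, fun N T hT hT1 => ?_⟩
  obtain ⟨T, rfl⟩ := cj_surj u T
  rw [t.W] at hT
  rw [norm_cj] at hT1
  have h1 := hC N T ((cm_cj u).1 hT) hT1
  rw [t.trn]
  refine le_trans (le_of_eq ?_) h1
  refine lintegral_congr fun s => ?_
  rw [t.pi, t.Om, cj_ap, cj_ap]
  congr 1
  exact u.toLinearIsometry.enorm_map _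

theorem tw_sizeg {b : G} {sz : Γ → ℝ} {m : Set Γ → (K →L[ℂ] K)}
    (t : Tw u π lam W Ω π' lam' W' Ω')
    (h : SIZEG b π Ω m sz) : SIZEG b π' Ω' (fun S => cj u (m S)) sz := by
  intro g η hη ε hε
  filter_upwards [h g η hη ε hε] with N hN
  rw [t.pi, t.Om, cj_ap, cj_norm_ap]
  exact hN

/-- conjugation of a unital completely positive limit -/
noncomputable def cjU {Y : Type} [TopologicalSpace Y] (u : K ≃ₗᵢ[ℂ] K')
    (U : C(Y, ℂ) →ₗ[ℂ] (K →L[ℂ] K)) : C(Y, ℂ) →ₗ[ℂ] (K' →L[ℂ] K') where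
  toFun f := cj u (U f)
  map_add' f g := by rw [map_add, map_add]
  map_smul' z f := by rw [map_smul, map_smul, RingHom.id_apply]

theorem cjU_ap {Y : Type} [TopologicalSpace Y] (U : C(Y, ℂ) →ₗ[ℂ] (K →L[ℂ] K)) (f : C(Y, ℂ)) :
    cjU u U f = cj u (U f) := rfl

/-- conjugation of a calculus -/
noncomputable def cjF {Y : Type} [TopologicalSpace Y] (u : K ≃ₗᵢ[ℂ] K')
    (β : C(Y, ℂ) →⋆ₐ[ℂ] (K →L[ℂ] K)) : C(Y, ℂ) →⋆ₐ[ℂ] (K' →L[ℂ] K') :=
  (cjH u).comp β

theorem cjF_ap {Y : Type} [TopologicalSpace Y] (β : C(Y, ℂ) →⋆ₐ[ℂ] (K →L[ℂ] K)) (f : C(Y, ℂ)) :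
    cjF u β f = cj u (β f) := rfl

end Vale.Agent.P092.H53.TwX
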