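import Vale.Agent.P092.SR.Blocks

/-! P092, project B: the legs can be exchanged. -/

set_option linter.all false

open scoped InnerProductSpace
open Filter Topology ContinuousLinearMap MeasureTheory

namespace Vale.Agent.P092.SR

theorem swapLegStmt : SwapLegStmt := by
  intro ι Γ ℋ _ _ _ _ _ V R₁ R₂ ξ h
  refine ⟨h.adjV, h.adj₂, h.adj₁, h.comm₂, h.comm₁, fun a b => (h.comm₁₂ b a).symm, h.ne,
    fun η => ?_⟩
  let e : ι × Γ × Γ ≃ ι × Γ × Γ := (Equiv.refl ι).prodCongr (Equiv.prodComm Γ Γ)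
  have := (e.hasSum_iff).mpr (h.frame η)
  refine this.congr_fun fun p => ?_
  have h1 : R₂ p.2.1 (R₁ p.2.2 (ξ p.1)) = R₁ p.2.2 (R₂ p.2.1 (ξ p.1)) := by
    have := congrArg (fun T : ℋ →L[ℂ] ℋ => T (ξ p.1)) (h.comm₁₂ p.2.2 p.2.1)
    exact this.symm
  rw [h1]
  rfl

end Vale.Agent.P092.SR
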